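import Vale.Agent.P057.Main

namespace Vale.Agent.Results.P057.Lower

open Vale.Agent.P057 Filter

theorem result :
    (∀ ε : ℝ, 0 < ε → ∀ᶠ N : ℕ in atTop,
      (N : ℝ) * Real.exp (-((2 + ε) * √(Real.log (81 / 25) * Real.log N))) ≤ r 4 N) ∧
    ∀ n k : ℕ, 3 ≤ n → 2 ^ (n - 1) < k → ∀ ε : ℝ, 0 < ε → ∀ᶠ N : ℕ in atTop,
      (N : ℝ) * Real.exp (-((n + ε) *
        (2 ^ (n * (n - 1) / 2) * Real.log 2 ^ (n - 2) * Real.log (12 / 7) * Real.log N) ^
          ((1 : ℝ) / n))) ≤ r k N := by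
  refine ⟨fun ε hε => ?_, fun n k hn hk => final ?_ (by omega) ?_ (G_large hn hk)⟩
  · simpa only [Real.sqrt_eq_rpow, Nat.cast_ofNat] using
      final (by norm_num) two_ne_zero (Real.log_pos (by norm_num)) G_four ε hε
  · have : 2 ^ 1 ≤ 2 ^ (n - 1) := Nat.pow_le_pow_right two_pos (by omega)
    omega
  · have := Real.log_pos one_lt_two
    have := Real.log_pos (show (1 : ℝ) < 12 / 7 by norm_num)
    positivity

end Vale.Agent.Results.P057.Lower
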